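import Claimed.Agent.R316.Pack024

/-!
# Row 316, `BP-G13`, file `Rich/Cover.lean`: locally finite covers by compact pieces of parametrisations; bumps in a chart; continuous minorants

Sub-captain: helper16.  PAPER FREE (point set topology, Mathlib + `CM/Param`, `CM/Trans`, `CM/Top`).

LEAVES.
* **G13-COVER** = `exists_locallyFinite_cover` (~400 lines).
* **G13-BUMP**  = `exists_chart_bump`, `exists_continuous_minorant` (~250 lines).

PLANS.
* `exists_locallyFinite_cover`.  Work in the topological space `X := 𝓜.carrier` (subtype): T2, locally compact (`CMfd.locallyCompactSpace_carrier`), σ-compact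
  (`CMfd.isSigmaCompact_carrier`, `isSigmaCompact_iff_sigmaCompactSpace`; `V` is second countable because it is proper), metrizable hence normal.
  For `x : X` choose (`CMfd.exists_centred_in`, `O = univ`) `Φ_x`, `R_x > 0` with `𝓜.IsHol Φ_x (ball 0 (2 R_x))`, `Φ_x 0 = x`.  The sets `B x r := Subtype.val ⁻¹' (Φ_x '' ball 0 r)`, `0 < r < R_x`, form a basis of `𝓝 x`
  (`IsParam.map_nhds_eq`, `Metric.nhds_basis_ball`, `nhds_subtype_eq_comap` / `map_nhds_subtype_val`).
  `refinement_of_locallyCompact_sigmaCompact_of_nhds_basis` gives `α`, `c : α → X`, `r`, with `⋃ B (c a) (r a) = univ`, locally finite.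
  `C a := closedBall 0 (r a)`; `Φ '' closedBall 0 r ⊆ closure (Φ '' ball 0 r)` (`closure_ball`, `image_closure_subset_closure_image`), `LocallyFinite.closure`: the family `val ⁻¹' (Φ_a '' C a)` is locally finite.
  Shrinking lemma `exists_iUnion_eq_closure_subset` (open, point finite, covering): open `W a`, `closure (W a) ⊆ B a`, `⋃ W a = univ`.
  `K a := C a ∩ Φ_a ⁻¹' (val '' closure (W a))`: it is `⊆ ball 0 (r a) = interior (C a)` (injectivity of `Φ_a`), and compact (closed subset of `C a`: preimage of a relatively closed set under the continuous map `Φ_a` on `C a`).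
  Countability: `LocallyFinite.countable_univ` (all `B a` are nonempty), so there is an injection `e : α → ℕ`; for `i ∉ range e` use any parametrisation (carrier nonempty) with `K i = C i = ∅`.
  Local finiteness in the form of the statement: `N := val '' N'`, `N' ∈ 𝓝 x` from `LocallyFinite`; `map_nhds_subtype_val`/`mem_nhdsWithin_iff_exists_mem_nhds_inter`.
* `exists_chart_bump`.  `exists_compact_between hK isOpen_interior hKC` twice: `K ⊆ interior K₁`, `K₁ ⊆ interior K₂`..., then Mathlib's smooth Urysohn: `exists_contDiff_zero_one` /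
  `exists_smooth_zero_one_of_isClosed 𝓘(ℝ, CE ι)` for the disjoint closed sets `(interior K₂)ᶜ` and `K₁`  (`ContMDiff.contDiff`).
* `exists_continuous_minorant`.  `X := 𝓜.carrier`; `t x := {c | 0 < c ∧ DdGeAt 𝓜 v (smulF (fun _ => c) g) x}` is convex: it is an interval `(0, s)` or `(0, s]`: if `c ∈ t x` and `0 < c' ≤ c` then `c' ∈ t x`
  (`DdGeAt.mono`, `(c - c') g ≥ 0`).  Locally the constant function `c_O` is a section.  `exists_continuous_forall_mem_convex_of_local` gives `c : C(X, ℝ)`; extend by `0` outside the carrier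
  (`fun x => if h : x ∈ 𝓜.carrier then c ⟨x, h⟩ else 0`; `continuousOn_iff_continuous_restrict`).  Finally `smulF c g` and `smulF (fun _ => c x) g` agree at the point `x`.
-/

set_option autoImplicit false
set_option linter.unusedSectionVars false
open scoped ContDiff ComplexOrder Topology Manifold
open Filter

namespace Claimed.Agent.R316

variable {V : Type} [NormedAddCommGroup V] [NormedSpace ℝ V]
variable {ι : Type} [Fintype ι] [DecidableEq ι]
variable [FiniteDimensional ℝ V]

/-- **locally finite cover** by images of compact sets `K i ⊆ interior (C i)`, `C i` compact in the domain of a parametrisation. -/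
theorem exists_locallyFinite_cover (𝓜 : CMfd V ι) (hne : 𝓜.carrier.Nonempty) :
    ∃ (Φ : ℕ → CE ι → V) (U K C : ℕ → Set (CE ι)),
      (∀ i, 𝓜.IsHol (Φ i) (U i)) ∧ (∀ i, IsCompact (K i)) ∧ (∀ i, IsCompact (C i)) ∧
      (∀ i, K i ⊆ interior (C i)) ∧ (∀ i, C i ⊆ U i) ∧
      (𝓜.carrier ⊆ ⋃ i, Φ i '' K i) ∧
      ∀ x ∈ 𝓜.carrier, ∃ N ∈ 𝓝[𝓜.carrier] x, {i | (Φ i '' C i ∩ N).Nonempty}.Finite := by
  classical
  have : ProperSpace V := FiniteDimensional.proper ℝ V
  have : LocallyCompactSpace 𝓜.carrier := 𝓜.locallyCompactSpace_carrier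
  have : SigmaCompactSpace 𝓜.carrier :=
    isSigmaCompact_iff_sigmaCompactSpace.1 𝓜.isSigmaCompact_carrier
  -- centred parametrisations
  have hch : ∀ x : 𝓜.carrier, ∃ (Φ : CE ι → V) (R : ℝ), 0 < R ∧ 𝓜.IsHol Φ (Metric.ball 0 R) ∧
      Φ 0 = x := fun x => 𝓜.exists_centred x.2
  choose Ψ R hR hΨ hΨ0 using hch
  have hB : ∀ x : 𝓜.carrier, (𝓝 x).HasBasis (fun r : ℝ => 0 < r ∧ r < R x)
      (fun r => (Subtype.val : 𝓜.carrier → V) ⁻¹' (Ψ x '' Metric.ball 0 r)) := by
    intro x
    have h1 : (𝓝 (0 : CE ι)).HasBasis (fun r : ℝ => 0 < r ∧ r < R x) (Metric.ball 0) :=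
      Metric.nhds_basis_ball.restrict fun r hr => ⟨min r (R x / 2), lt_min hr (half_pos (hR x)),
        (min_le_right _ _).trans_lt (half_lt_self (hR x)), Metric.ball_subset_ball (min_le_left _ _)⟩
    have h2 := h1.map (Ψ x)
    rw [(𝓜.isParam (hΨ x)).map_nhds_eq (Metric.mem_ball_self (hR x)), hΨ0] at h2
    rw [nhds_subtype_eq_comap_nhdsWithin]
    exact h2.comap _
  obtain ⟨α, c, r, hp, hcov, hlf⟩ := refinement_of_locallyCompact_sigmaCompact_of_nhds_basis hB
  have hpar : ∀ a, IsParam 𝓜.carrier (Ψ (c a)) (Metric.ball 0 (R (c a))) := fun a =>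
    𝓜.isParam (hΨ (c a))
  have hbb : ∀ a, Metric.ball (0 : CE ι) (r a) ⊆ Metric.ball 0 (R (c a)) := fun a =>
    Metric.ball_subset_ball (hp a).2.le
  have hcb : ∀ a, Metric.closedBall (0 : CE ι) (r a) ⊆ Metric.ball 0 (R (c a)) := fun a =>
    Metric.closedBall_subset_ball (hp a).2
  have hBo : ∀ a, IsOpen ((Subtype.val : 𝓜.carrier → V) ⁻¹' (Ψ (c a) '' Metric.ball 0 (r a))) := by
    intro a
    obtain ⟨O, hO, hOe⟩ := (hpar a).exists_isOpen_image Metric.isOpen_ball (hbb a)
    have e : (Subtype.val : 𝓜.carrier → V) ⁻¹' (Ψ (c a) '' Metric.ball 0 (r a)) =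
        Subtype.val ⁻¹' O := by
      ext x
      simp only [Set.mem_preimage, hOe, Set.mem_inter_iff, x.2, true_and]
    rw [e]
    exact hO.preimage continuous_subtype_val
  obtain ⟨w, hwU, _, hwc⟩ := exists_iUnion_eq_closure_subset hBo (fun x => hlf.point_finite x) hcov
  have hF : ∀ a, ∃ F : Set V, IsClosed F ∧ closure (w a) = Subtype.val ⁻¹' F := fun a => by
    obtain ⟨F, hF, e⟩ := isClosed_induced_iff.1 (isClosed_closure (s := w a))
    exact ⟨F, hF, e.symm⟩
  choose F hFc hFe using hF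
  have hKc : ∀ a, IsCompact (Metric.closedBall (0 : CE ι) (r a) ∩ Ψ (c a) ⁻¹' F a) := fun a =>
    (isCompact_closedBall 0 (r a)).of_isClosed_subset
      (((hpar a).continuousOn.mono (hcb a)).preimage_isClosed_of_isClosed Metric.isClosed_closedBall
        (hFc a)) Set.inter_subset_left
  have hKb : ∀ a, Metric.closedBall (0 : CE ι) (r a) ∩ Ψ (c a) ⁻¹' F a ⊆ Metric.ball 0 (r a) := by
    rintro a y ⟨hy, hyF⟩
    have hyU := hcb a hy
    have h1 : (⟨Ψ (c a) y, (hpar a).mem hyU⟩ : 𝓜.carrier) ∈ closure (w a) := by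
      rw [hFe a]
      exact hyF
    obtain ⟨y', hy', e⟩ := hwc a h1
    rw [← (hpar a).injOn (hbb a hy') hyU e]
    exact hy'
  have hC : ∀ a, ∃ C : Set (CE ι), IsCompact C ∧
      Metric.closedBall (0 : CE ι) (r a) ∩ Ψ (c a) ⁻¹' F a ⊆ interior C ∧ C ⊆ Metric.ball 0 (r a) :=
    fun a => exists_compact_between (hKc a) Metric.isOpen_ball (hKb a)
  choose C hCc hKC hCb using hC
  -- enumeration
  have hcount : (Set.univ : Set α).Countable := hlf.countable_univ fun a =>
    ⟨c a, 0, Metric.mem_ball_self (hp a).1, hΨ0 _⟩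
  have : Countable α := Set.countable_univ_iff.1 hcount
  obtain ⟨e, he⟩ := exists_injective_nat α
  obtain ⟨x₀, hx₀⟩ := hne
  obtain ⟨d, hd⟩ : ∃ d : ℕ → Option α, d = fun i => if h : ∃ a, e a = i then some h.choose else none :=
    ⟨_, rfl⟩
  have hd1 : ∀ a, d (e a) = some a := fun a => by
    have h : ∃ a', e a' = e a := ⟨a, rfl⟩
    rw [hd]
    simp only [dif_pos h]
    exact congrArg some (he h.choose_spec)
  have hd2 : ∀ i a, d i = some a → e a = i := fun i a h => by
    rw [hd] at h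
    by_cases hi : ∃ a, e a = i
    · simp only [dif_pos hi, Option.some.injEq] at h
      rw [← h]
      exact hi.choose_spec
    · simp only [dif_neg hi] at h
      exact absurd h (by simp)
  refine ⟨fun i => (d i).elim (Ψ ⟨x₀, hx₀⟩) fun a => Ψ (c a),
    fun i => (d i).elim (Metric.ball 0 (R ⟨x₀, hx₀⟩)) fun a => Metric.ball 0 (R (c a)),
    fun i => (d i).elim ∅ fun a => Metric.closedBall (0 : CE ι) (r a) ∩ Ψ (c a) ⁻¹' F a,
    fun i => (d i).elim ∅ C, ?_, ?_, ?_, ?_, ?_, ?_, ?_⟩
  · intro i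
    beta_reduce
    rcases d i with _ | a
    · exact hΨ _
    · exact hΨ _
  · intro i
    beta_reduce
    rcases d i with _ | a
    · exact isCompact_empty
    · exact hKc a
  · intro i
    beta_reduce
    rcases d i with _ | a
    · exact isCompact_empty
    · exact hCc a
  · intro i
    beta_reduce
    rcases d i with _ | a
    · exact Set.empty_subset _
    · exact hKC a
  · intro i
    beta_reduce
    rcases d i with _ | a
    · exact Set.empty_subset _
    · exact (hCb a).trans (hbb a)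
  · intro x hx
    have h1 : (⟨x, hx⟩ : 𝓜.carrier) ∈ ⋃ a, w a := by rw [hwU]; exact Set.mem_univ _
    obtain ⟨a, ha⟩ := Set.mem_iUnion.1 h1
    have h2 : (⟨x, hx⟩ : 𝓜.carrier) ∈ closure (w a) := subset_closure ha
    obtain ⟨y, hy, hyx⟩ := hwc a h2
    have h3 : x ∈ F a := by
      rw [hFe a] at h2
      exact h2
    refine Set.mem_iUnion.2 ⟨e a, ?_⟩
    simp only [hd1 a, Option.elim_some]
    have hyx' : Ψ (c a) y = x := hyx
    exact ⟨y, ⟨Metric.ball_subset_closedBall hy, by rw [Set.mem_preimage, hyx']; exact h3⟩, hyx'⟩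
  · intro x hx
    obtain ⟨N, hN, hfin⟩ := hlf ⟨x, hx⟩
    refine ⟨Subtype.val '' N, ?_, ?_⟩
    · rw [← map_nhds_subtype_val (⟨x, hx⟩ : 𝓜.carrier)]
      exact Filter.image_mem_map hN
    · refine (hfin.image e).subset ?_
      rintro i ⟨_, ⟨y, hy, rfl⟩, ⟨n, hn, hny⟩⟩
      rcases hdi : d i with _ | a
      · simp only [hdi, Option.elim_none, Set.mem_empty_iff_false] at hy
      · simp only [hdi, Option.elim_some] at hy hny
        exact ⟨a, ⟨n, ⟨y, hCb a hy, hny.symm⟩, hn⟩, hd2 i a hdi⟩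

/-- smooth bump in a chart. -/
theorem exists_chart_bump {K C : Set (CE ι)} (hK : IsCompact K) (hKC : K ⊆ interior C) :
    ∃ β : CE ι → ℝ, ContDiff ℝ ∞ β ∧ (∀ y, 0 ≤ β y ∧ β y ≤ 1) ∧
      (∃ O : Set (CE ι), IsOpen O ∧ K ⊆ O ∧ ∀ y ∈ O, β y = 1) ∧
      ∃ K' : Set (CE ι), IsCompact K' ∧ K' ⊆ interior C ∧ ∀ y, y ∉ K' → β y = 0 := by
  obtain ⟨K₁, hK₁, hKK₁, hK₁C⟩ := exists_compact_between hK isOpen_interior hKC
  obtain ⟨f, h1, h0, h01⟩ := exists_contMDiffMap_one_nhds_of_subset_interior (n := ⊤)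
    (𝓘(ℝ, CE ι)) hK.isClosed hKK₁
  obtain ⟨O, hKO, hO, hO1⟩ := mem_nhdsSet_iff_exists.1 h1
  exact ⟨f, f.contMDiff.contDiff, fun y => h01 y, ⟨O, hKO, hO, fun y hy => hO1 hy⟩, K₁, hK₁, hK₁C,
    fun y hy => h0 y hy⟩

/-- local positive lower bounds can be glued to a continuous positive lower bound. -/
theorem exists_continuous_minorant {𝓜 : CMfd V ι} {g : HFam V ι} {v : V → ℝ} (hg : IsMetric 𝓜 g)
    (hdd : ∀ x ∈ 𝓜.carrier, ∃ (O : Set V) (c : ℝ), IsOpen O ∧ x ∈ O ∧ 0 < c ∧
      DdGe 𝓜 O v (smulF (fun _ => c) g)) :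
    ∃ c : V → ℝ, ContinuousOn c 𝓜.carrier ∧ (∀ x ∈ 𝓜.carrier, 0 < c x) ∧
      DdGe 𝓜 Set.univ v (smulF c g) := by
  classical
  have hmono : ∀ x, ∀ c c' : ℝ, c' ≤ c → DdGeAt 𝓜 v (smulF (fun _ => c) g) x →
      DdGeAt 𝓜 v (smulF (fun _ => c') g) x := by
    intro x c c' hcc h
    refine DdGeAt.mono h fun Φ U hΦ z hz _ => ?_
    have e : smulF (fun _ => c) g Φ z - smulF (fun _ => c') g Φ z = ((c - c' : ℝ) : ℂ) • g Φ z := by
      simp only [smulF]
      push_cast
      module
    rw [e]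
    exact posSemidef_smul_real (by linarith) (hg.posDef hΦ z hz).posSemidef
  obtain ⟨cf, hcf⟩ := exists_continuous_forall_mem_convex_of_local_const
    (X := 𝓜.carrier) (E := ℝ)
    (t := fun x => {c : ℝ | 0 < c ∧ DdGeAt 𝓜 v (smulF (fun _ => c) g) x}) (by
      intro x c₁ h₁ c₂ h₂ a b ha hb hab
      have hpos : 0 < a • c₁ + b • c₂ := by
        simp only [smul_eq_mul]
        rcases ha.eq_or_lt with rfl | ha'
        · have : b = 1 := by linarith
          subst this
          simpa using h₂.1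
        · have := mul_pos ha' h₁.1
          have := mul_nonneg hb h₂.1.le
          linarith
      refine ⟨hpos, ?_⟩
      simp only [smul_eq_mul]
      rcases le_total c₁ c₂ with h | h
      · refine hmono x c₂ _ ?_ h₂.2
        have : a * c₁ ≤ a * c₂ := mul_le_mul_of_nonneg_left h ha
        calc a * c₁ + b * c₂ ≤ a * c₂ + b * c₂ := by linarith
          _ = c₂ := by rw [← add_mul, hab, one_mul]
      · refine hmono x c₁ _ ?_ h₁.2
        have : b * c₂ ≤ b * c₁ := mul_le_mul_of_nonneg_left h hb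
        calc a * c₁ + b * c₂ ≤ a * c₁ + b * c₁ := by linarith
          _ = c₁ := by rw [← add_mul, hab, one_mul]) (by
      intro x
      obtain ⟨O, c, hO, hxO, hc, hOc⟩ := hdd x x.2
      refine ⟨c, ?_⟩
      filter_upwards [(hO.preimage continuous_subtype_val).mem_nhds hxO] with y hy
      exact ⟨hc, hOc y ⟨y.2, hy⟩⟩)
  refine ⟨fun x => if h : x ∈ 𝓜.carrier then cf ⟨x, h⟩ else 0, ?_, ?_, ?_⟩
  · rw [continuousOn_iff_continuous_domRestrict]
    have e : (𝓜.carrier.domRestrict fun x => if h : x ∈ 𝓜.carrier then cf ⟨x, h⟩ else 0) = cf := by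
      funext x
      rw [Set.domRestrict_apply, dif_pos x.2]
    rw [e]
    exact cf.continuous
  · intro x hx
    simp only [dif_pos hx]
    exact (hcf ⟨x, hx⟩).1
  · intro x hx
    refine DdGeAt.mono (hcf ⟨x, hx.1⟩).2 fun Φ U hΦ z hz hzx => ?_
    rw [Set.mem_singleton_iff] at hzx
    have e : smulF (fun _ => cf ⟨x, hx.1⟩) g Φ z -
        smulF (fun x => if h : x ∈ 𝓜.carrier then cf ⟨x, h⟩ else 0) g Φ z = 0 := by
      simp only [smulF, hzx, dif_pos hx.1, sub_self]
    rw [e]
    exact Matrix.PosSemidef.zero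

end Claimed.Agent.R316
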