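import Claimed.Agent.R316.Base.Rich.Visc
import Claimed.Agent.R316.B5.Psh
import Claimed.Agent.R316.CW.MatAlg

/-!
# Row 316, `BP-G13`, file `Rich/Moll.lean`: mollification in a chart (uniform estimates on compact sets)

Sub-captain: helper16.  PAPER FREE.  `B6E.wsMol k f = ρ_k ⋆ f`, `ρ_k` even, `≥ 0`, `∫ ρ_k = 1`, supported in `ball 0 (1/(k+1))` (`B6E/Moll.lean`, sorry free).
`cI c = c • 1` (`Core/Psh.lean`);  `qf`-calculus and Loewner order: `CW/MatAlg.lean` (sorry free);  `levi`-calculus: `CW/Levi.lean` (sorry free).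

LEAVES.
* **G13-MAT**    = section `mat`   (continuous families of Hermitian matrices on compact sets, ~300 lines).
* **G13-MOLL-A** = section `levi`  (sup estimate, Levi lower bound of the mollification of a viscosity subsolution, ~400 lines).
* **G13-MOLL-B** = section `lip`   (chart Lipschitz calculus and its mollification, ~450 lines).
* **G13-MOLL-C** = section `trans` (transfer `LocLipAt ⟷ ChLipAt`, ~200 lines).

PLANS.
* `posSemidef_add_cI_of_entry_le`: `qf E v ≥ - ∑_{jk} ‖E j k‖ ‖v j‖ ‖v k‖ ≥ - b (∑ ‖v j‖)² ≥ - b n ∑ ‖v j‖²` (`qf_eq_sum`, `qf_one`, `inner_mul_le_norm_mul_norm` / `sq_sum_le_card_mul_sum_sq`), `posSemidef_iff_qf`.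
* `exists_loewner_close`: choose a compact `C₁`, `C ⊆ interior C₁ ⊆ C₁ ⊆ U` (`exists_compact_between`); the entries are uniformly continuous on `C₁` (`IsCompact.uniformContinuousOn_of_continuous`);
  `r` smaller than the distance from `C` to the complement of `interior C₁` (`IsCompact.exists_thickening_subset_open`).
* `exists_cI_le`: `(z, a) ↦ qf (G z) a` is continuous and positive on the compact set `C × unit sphere` (if `ι` or `C` is empty the statement is trivial); homogeneity `qf_smul_vec`; note `qf 1 a = ∑ ‖a j‖² = ‖a‖²` for `a : CE ι` (`EuclideanSpace.norm_sq_eq`).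
* `exists_qf_le`: `exists_cI_le` (constant `c`) and `exists_loewner_close` for `-G`... precisely for `a := fun z => - G z`, `η := ε c`.
* `exists_levi_lower`: the entries of `levi β` are continuous (`contDiffAt_levi`), bounded on `C`; `posSemidef_add_cI_of_entry_le`; `levi_isHermitian`.
* `wsMol_sub_le`: `B6E.wsMol_dist_le` + uniform continuity of `f` on a compact neighbourhood of `C`.
* `wsMol_quadratic`: `P y = qf a₀ (y - z₁)`.  `wsMol k P x = ∫ ρ_k y P (x - y)` (`B6E.wsMol_eq'`); `P (x - y) = P x + P' y - 2 Re ⟨..⟩`, where the cross term is odd in `y` (`qf_add_vec`), `ρ_k` even (`B6E.wsRho_neg`), so its integral vanishes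
  (`MeasureTheory.integral_neg_eq_self` / `integral_comp_neg`): `wsMol k P = P + const`.  Then `levi_add_const`, `levi_qf`, `levi_comp_add_const`.
* `levi_wsMol_ge_of_chVisc`.  `r` from `exists_loewner_close` for `a`, `η/2`.  Let `1/(k+1) < r`, `z₁ ∈ C`, `a₀ := a z₁ - cI (η/2)`, `P y := qf a₀ (y - z₁)`, `h := f - P`, `O := ball z₁ r ⊆ U`.
  `ChVisc O h 0`: if `q` touches `h` from above at `y ∈ O`, then `q + P` touches `f`, so `levi q y + a₀ - a y ≥ 0`... and `a y - a₀ = (a y - a z₁ + cI (η/2)) ≥ 0`, hence `levi q y ≥ 0` (`loewner_trans`).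
  So `PshOn O h` (`ChVisc.pshOn`), `levi (wsMol k h) z₁ ≥ 0` (`levi_wsMol_posSemidef`, B5), `wsMol k h = wsMol k f - wsMol k P` (`B6E.wsMol_sub`), `levi_sub` (`B6E.wsMol_contDiff`), `wsMol_quadratic`:
  `levi (wsMol k f) z₁ ≥ a₀ = a z₁ - cI (η/2)`.
* `ChLipAt` calculus: `Filter.Eventually.and`, `abs_add`, `Real.sqrt_nonneg`.
* `exists_chLipAt_of_contDiff`: `‖fderiv β‖ ≤ L₀` on the convex compact set `closedBall 0 R ⊇ cthickening 1 C`; `Convex.norm_image_sub_le_of_norm_fderiv_le`; `c ‖a‖² ≤ qf (G z) a` (`exists_cI_le`): `L := L₀ / √c`.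
* `chLipAt_wsMol`.  Let `C₁` compact, `C ⊆ interior C₁`, `C₁ ⊆ U`; `Λ₀ := sup_{C₁} lam`.  Choose `ε, η₁ > 0` with `(Λ₀ + 2 η₁)(1+ε) ≤ ... ` i.e. `(l + 2 η₁) √(1+ε)² ≤ l + η/2` for all `0 ≤ l ≤ Λ₀`.
  (1) UNIFORMISATION (Lebesgue number): there is `r > 0` such that for all `p₀ ∈ C₁'` (a compact neighbourhood of `C` inside `interior C₁`) and `p, p' ∈ ball p₀ r`:  `|f p - f p'| ≤ (lam p₀ + 2 η₁) √(1+ε) |p - p'|_{G p₀}`:
      every `p₁` has a ball `B(p₁, 2 r₁)` on which `|f p - f p'| ≤ (lam p₁ + η₁) |p - p'|_{G p₁}`, `lam p₁ ≤ lam + η₁`, `qf (G p₁) ≤ (1+ε) qf (G ·)`; finitely many `B(p₁, r₁)` cover.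
  (2) for `1/(k+1) < min r (dist to the boundary)` also small enough that `lam (z - t) ≤ lam z + η₁`, `qf (G (z - t)) ≤ (1+ε) qf (G z)` for `z ∈ C`, `‖t‖ < 1/(k+1)`:
      `|F y - F y'| ≤ ∫ ρ_k t |f (y - t) - f (y' - t)| dt` (`B6E.wsMol_eq'`, `norm_integral_le_integral_norm`, `∫ ρ_k = 1`), `y, y' ∈ ball z r`, `p₀ = z - t`.
* `LocLipAt.chLipAt` / `LocLipAt.of_chLipAt`: `hdist_local_compare hg hΦ hz` with small `ε`; `(L + η₁)(1 + ε) ≤ L + η`, resp. `(L + η₁)/(1 - ε) ≤ L + η`;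
  neighbourhoods: `(𝓜.isParam hΦ).map_nhds_eq hz`; `𝓝 (z,z) = 𝓝 z ×ˢ 𝓝 z` (`nhds_prod_eq`, `Filter.Eventually.prod_mk`, `Filter.eventually_prod_iff`).
-/

set_option autoImplicit false
set_option linter.unusedSectionVars false
open scoped ContDiff ComplexOrder Topology
open Filter MeasureTheory

namespace Claimed.Agent.R316

variable {ι : Type} [Fintype ι] [DecidableEq ι]

/-! ### continuous families of Hermitian matrices -/

section mat

theorem rich_qf_cI (c : ℝ) (v : ι → ℂ) : qf (cI c : Matrix ι ι ℂ) v = c * ∑ j, ‖v j‖ ^ 2 := by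
  rw [cI, qf_smul, qf_one]

theorem rich_isHermitian_cI (c : ℝ) : (cI c : Matrix ι ι ℂ).IsHermitian :=
  isHermitian_smul_real c Matrix.isHermitian_one

theorem rich_posSemidef_cI {c : ℝ} (hc : 0 ≤ c) : (cI c : Matrix ι ι ℂ).PosSemidef :=
  posSemidef_smul_real hc Matrix.PosSemidef.one

theorem rich_add_cI_mono {E : Matrix ι ι ℂ} {c c' : ℝ} (h : (E + cI c).PosSemidef) (hc : c ≤ c') :
    (E + cI c').PosSemidef := by
  have e : E + cI c' = (E + cI c) + cI (c' - c) := by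
    simp only [cI]
    push_cast
    module
  rw [e]
  exact h.add (rich_posSemidef_cI (by linarith))

theorem posSemidef_add_cI_of_entry_le {E : Matrix ι ι ℂ} (hE : E.IsHermitian) {b : ℝ}
    (h : ∀ j k, ‖E j k‖ ≤ b) : (E + cI (b * Fintype.card ι)).PosSemidef := by
  rw [posSemidef_iff_qf (hE.add (rich_isHermitian_cI _))]
  intro v
  rw [qf_add, rich_qf_cI]
  rcases isEmpty_or_nonempty ι with hι | ⟨⟨i₀⟩⟩
  · simp [qf_eq_sum]
  have hb : 0 ≤ b := (norm_nonneg _).trans (h i₀ i₀)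
  have h1 : |qf E v| ≤ b * (∑ j, ‖v j‖) ^ 2 := by
    rw [qf_eq_sum]
    refine (Complex.abs_re_le_norm _).trans ?_
    refine (norm_sum_le _ _).trans ?_
    rw [sq, Finset.sum_mul_sum, Finset.mul_sum]
    refine Finset.sum_le_sum fun j _ => ?_
    refine (norm_sum_le _ _).trans ?_
    rw [Finset.mul_sum]
    refine Finset.sum_le_sum fun k _ => ?_
    rw [norm_mul, norm_mul, RCLike.norm_conj]
    have := h j k
    have h2 : ‖v j‖ * ‖E j k‖ * ‖v k‖ ≤ ‖v j‖ * b * ‖v k‖ := by gcongr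
    linarith
  have h2 : (∑ j, ‖v j‖) ^ 2 ≤ Fintype.card ι * ∑ j, ‖v j‖ ^ 2 := by
    have := sq_sum_le_card_mul_sum_sq (s := Finset.univ) (f := fun j => ‖v j‖)
    simpa using this
  have h3 := mul_le_mul_of_nonneg_left h2 hb
  have h4 := (abs_le.1 h1).1
  nlinarith

/-- local continuity in the Loewner order. -/
theorem rich_eventually_loewner {X : Type} [TopologicalSpace X] {l : Filter X}
    {a : X → Matrix ι ι ℂ} {A₀ : Matrix ι ι ℂ} (ha : ∀ j k, Tendsto (fun z => a z j k) l (𝓝 (A₀ j k)))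
    (hherm : ∀ᶠ z in l, (a z).IsHermitian) (hA₀ : A₀.IsHermitian) {η : ℝ} (hη : 0 < η) :
    ∀ᶠ z in l, (a z - A₀ + cI η).PosSemidef := by
  have hb : 0 < η / (Fintype.card ι + 1) := by positivity
  have h1 : ∀ᶠ z in l, ∀ j k, ‖a z j k - A₀ j k‖ ≤ η / (Fintype.card ι + 1) := by
    rw [Filter.eventually_all]
    intro j
    rw [Filter.eventually_all]
    intro k
    have := (ha j k).eventually (Metric.closedBall_mem_nhds _ hb)
    filter_upwards [this] with z hz
    rwa [dist_eq_norm] at hz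
  filter_upwards [h1, hherm] with z hz hzh
  refine rich_add_cI_mono (posSemidef_add_cI_of_entry_le (hzh.sub hA₀) hz) ?_
  rw [div_mul_eq_mul_div, div_le_iff₀ (by positivity)]
  nlinarith

/-- uniform continuity in the Loewner order. -/
theorem exists_loewner_close {U C : Set (CE ι)} (hU : IsOpen U) (hC : IsCompact C) (hCU : C ⊆ U)
    {a : CE ι → Matrix ι ι ℂ} (ha : ∀ j k, ContinuousOn (fun z => a z j k) U)
    (hherm : ∀ z ∈ U, (a z).IsHermitian) {η : ℝ} (hη : 0 < η) :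
    ∃ r > 0, ∀ z ∈ C, ∀ y, dist y z < r → y ∈ U ∧ (a y - a z + cI η).PosSemidef := by
  obtain ⟨C₁, hC₁, hCC₁, hC₁U⟩ := exists_compact_between hC hU hCU
  obtain ⟨ρ, hρ, hρs⟩ := hC.exists_thickening_subset_open isOpen_interior hCC₁
  have hcont : ContinuousOn (fun z => (fun j k => a z j k : ι → ι → ℂ)) C₁ :=
    continuousOn_pi.2 fun j => continuousOn_pi.2 fun k => (ha j k).mono hC₁U
  have hb : 0 < η / (Fintype.card ι + 1) := by positivity
  obtain ⟨δ, hδ, hδs⟩ := Metric.uniformContinuousOn_iff.1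
    (hC₁.uniformContinuousOn_of_continuous hcont) _ hb
  refine ⟨min ρ δ, lt_min hρ hδ, fun z hz y hy => ?_⟩
  have hyC₁ : y ∈ C₁ := interior_subset
    (hρs (Metric.mem_thickening_iff.2 ⟨z, hz, hy.trans_le (min_le_left _ _)⟩))
  have hzC₁ : z ∈ C₁ := interior_subset (hCC₁ hz)
  refine ⟨hC₁U hyC₁, ?_⟩
  have h1 := hδs y hyC₁ z hzC₁ (hy.trans_le (min_le_right _ _))
  refine rich_add_cI_mono (posSemidef_add_cI_of_entry_le
    ((hherm y (hC₁U hyC₁)).sub (hherm z (hC₁U hzC₁))) (b := η / (Fintype.card ι + 1))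
    fun j k => ?_) ?_
  · have h2 : dist (a y j k) (a z j k) ≤
        dist (fun j k => a y j k : ι → ι → ℂ) (fun j k => a z j k) :=
      (dist_le_pi_dist (fun k => a y j k) (fun k => a z j k) k).trans
        (dist_le_pi_dist (fun j k => a y j k : ι → ι → ℂ) (fun j k => a z j k) j)
    rw [Matrix.sub_apply, ← dist_eq_norm]
    exact h2.trans h1.le
  · rw [div_mul_eq_mul_div, div_le_iff₀ (by positivity)]
    nlinarith

theorem rich_sub_cI_mono {E : Matrix ι ι ℂ} {c c' : ℝ} (h : (E - cI c).PosSemidef) (hc : c' ≤ c) :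
    (E - cI c').PosSemidef := by
  have e : E - cI c' = (E - cI c) + cI (c - c') := by
    simp only [cI]
    push_cast
    module
  rw [e]
  exact h.add (rich_posSemidef_cI (by linarith))

/-- uniform positivity. -/
theorem exists_cI_le {U C : Set (CE ι)} (hC : IsCompact C) (hCU : C ⊆ U)
    {G : CE ι → Matrix ι ι ℂ} (hG : ∀ j k, ContinuousOn (fun z => G z j k) U)
    (hpos : ∀ z ∈ U, (G z).PosDef) : ∃ c > 0, ∀ z ∈ C, (G z - cI c).PosSemidef := by
  refine hC.induction_on (p := fun S => ∃ c > 0, ∀ z ∈ S, (G z - cI c).PosSemidef)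
    ⟨1, one_pos, fun z hz => hz.elim⟩ (fun S T hST ⟨c, hc, h⟩ => ⟨c, hc, fun z hz => h z (hST hz)⟩)
    ?_ ?_
  · rintro S T ⟨c, hc, h⟩ ⟨c', hc', h'⟩
    refine ⟨min c c', lt_min hc hc', ?_⟩
    rintro z (hz | hz)
    · exact rich_sub_cI_mono (h z hz) (min_le_left _ _)
    · exact rich_sub_cI_mono (h' z hz) (min_le_right _ _)
  · intro z₀ hz₀
    obtain ⟨c₀, hc₀, h₀⟩ := exists_pos_smul_one_le (hpos z₀ (hCU hz₀))
    have hev := rich_eventually_loewner (l := 𝓝[C] z₀) (a := G) (A₀ := G z₀)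
      (fun j k => ((hG j k).mono hCU) z₀ hz₀)
      (by filter_upwards [self_mem_nhdsWithin] with z hz using (hpos z (hCU hz)).isHermitian)
      (hpos z₀ (hCU hz₀)).isHermitian (half_pos hc₀)
    refine ⟨_, hev, c₀ / 2, half_pos hc₀, fun z hz => ?_⟩
    have hz' : (G z - G z₀ + cI (c₀ / 2)).PosSemidef := hz
    have e : G z - cI (c₀ / 2) = (G z - G z₀ + cI (c₀ / 2)) +
        (G z₀ - ((c₀ : ℝ) : ℂ) • (1 : Matrix ι ι ℂ)) := by
      simp only [cI]
      push_cast
      module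
    rw [e]
    exact hz'.add h₀

/-- multiplicative uniform continuity of a family of norms. -/
theorem exists_qf_le {U C : Set (CE ι)} (hU : IsOpen U) (hC : IsCompact C) (hCU : C ⊆ U)
    {G : CE ι → Matrix ι ι ℂ} (hG : ∀ j k, ContinuousOn (fun z => G z j k) U)
    (hpos : ∀ z ∈ U, (G z).PosDef) {ε : ℝ} (hε : 0 < ε) :
    ∃ r > 0, ∀ z ∈ C, ∀ y, dist y z < r → y ∈ U ∧
      ∀ a : ι → ℂ, qf (G y) a ≤ (1 + ε) * qf (G z) a ∧ qf (G z) a ≤ (1 + ε) * qf (G y) a := by
  obtain ⟨C₁, hC₁, hCC₁, hC₁U⟩ := exists_compact_between hC hU hCU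
  obtain ⟨ρ, hρ, hρs⟩ := hC.exists_thickening_subset_open isOpen_interior hCC₁
  obtain ⟨c, hc, hcG⟩ := exists_cI_le hC₁ hC₁U hG hpos
  have hη : 0 < ε * c := by positivity
  obtain ⟨r₁, hr₁, h₁⟩ := exists_loewner_close hU hC hCU hG
    (fun z hz => (hpos z hz).isHermitian) hη
  obtain ⟨r₂, hr₂, h₂⟩ := exists_loewner_close hU hC hCU (a := fun z => - G z)
    (fun j k => (hG j k).neg) (fun z hz => (hpos z hz).isHermitian.neg) hη
  refine ⟨min ρ (min r₁ r₂), lt_min hρ (lt_min hr₁ hr₂), fun z hz y hy => ?_⟩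
  have hyC₁ : y ∈ C₁ := interior_subset
    (hρs (Metric.mem_thickening_iff.2 ⟨z, hz, hy.trans_le (min_le_left _ _)⟩))
  have hzC₁ : z ∈ C₁ := interior_subset (hCC₁ hz)
  refine ⟨hC₁U hyC₁, fun a => ?_⟩
  have a1 := qf_nonneg (h₁ z hz y (hy.trans_le ((min_le_right _ _).trans (min_le_left _ _)))).2 a
  have a2 := qf_nonneg (h₂ z hz y (hy.trans_le ((min_le_right _ _).trans (min_le_right _ _)))).2 a
  have a3 := qf_nonneg (hcG y hyC₁) a
  have a4 := qf_nonneg (hcG z hzC₁) a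
  rw [qf_add, qf_sub, rich_qf_cI] at a1
  rw [qf_add, qf_sub, qf_neg, qf_neg, rich_qf_cI] at a2
  rw [qf_sub, rich_qf_cI] at a3 a4
  constructor
  · nlinarith
  · nlinarith

theorem exists_levi_lower {C : Set (CE ι)} (hC : IsCompact C) {β : CE ι → ℝ} (hβ : ContDiff ℝ ∞ β) :
    ∃ b : ℝ, 0 ≤ b ∧ ∀ z ∈ C, (levi β z + cI b).PosSemidef := by
  have hcont : Continuous (fun z => (fun j k => levi β z j k : ι → ι → ℂ)) :=
    continuous_pi fun j => continuous_pi fun k => continuous_iff_continuousAt.2 fun z =>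
      (contDiffAt_levi (m := 0) hβ.contDiffAt (by rw [zero_add]; exact lv_two_le_infty)).continuousAt
  obtain ⟨M, hM⟩ := hC.exists_bound_of_continuousOn hcont.continuousOn
  refine ⟨|M| * Fintype.card ι, by positivity, fun z hz => ?_⟩
  refine posSemidef_add_cI_of_entry_le
    (levi_isHermitian (hβ.of_le lv_two_le_infty).contDiffAt) fun j k => ?_
  exact ((norm_le_pi_norm (fun k => levi β z j k) k).trans
    (norm_le_pi_norm (fun j k => levi β z j k : ι → ι → ℂ) j)).trans ((hM z hz).trans (le_abs_self M))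

end mat

/-! ### sup estimate and Levi lower bound -/

section levi

theorem ChVisc.congr_of_isOpen {U O : Set (CE ι)} {f f' : CE ι → ℝ} {a : CE ι → Matrix ι ι ℂ}
    (h : ChVisc U f a) (hO : IsOpen O) (hOU : O ⊆ U) (he : Set.EqOn f f' O) : ChVisc O f' a := by
  intro z hz q hq hle heq
  refine h z (hOU hz) q hq ?_ (by rw [heq, he hz])
  filter_upwards [hle, hO.mem_nhds hz] with y h1 h2
  rw [he h2]
  exact h1

theorem rich_eventually_scale {r : ℝ} (hr : 0 < r) : ∀ᶠ k : ℕ in atTop, 1 / ((k : ℝ) + 1) < r :=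
  (tendsto_one_div_add_atTop_nhds_zero_nat (𝕜 := ℝ)).eventually (gt_mem_nhds hr)

/-- uniform convergence on compact sets. -/
theorem wsMol_sub_le {U C : Set (CE ι)} (hU : IsOpen U) (hC : IsCompact C) (hCU : C ⊆ U)
    {f : CE ι → ℝ} (hf : LocallyIntegrable f volume) (hc : ContinuousOn f U) {η : ℝ} (hη : 0 < η) :
    ∀ᶠ k : ℕ in atTop, ∀ z ∈ C, |B6E.wsMol k f z - f z| ≤ η := by
  obtain ⟨C₁, hC₁, hCC₁, hC₁U⟩ := exists_compact_between hC hU hCU
  obtain ⟨ρ, hρ, hρs⟩ := hC.exists_thickening_subset_open isOpen_interior hCC₁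
  obtain ⟨δ, hδ, hδs⟩ := Metric.uniformContinuousOn_iff.1
    (hC₁.uniformContinuousOn_of_continuous (hc.mono hC₁U)) _ hη
  filter_upwards [rich_eventually_scale (lt_min hρ hδ)] with k hk z hz
  rw [← Real.dist_eq]
  refine B6E.wsMol_dist_le k hf.aestronglyMeasurable fun y hy => ?_
  have hy' : dist y z < min ρ δ := (Metric.mem_ball.1 hy).trans hk
  have hyC₁ : y ∈ C₁ := interior_subset
    (hρs (Metric.mem_thickening_iff.2 ⟨z, hz, hy'.trans_le (min_le_left _ _)⟩))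
  exact (hδs y hyC₁ z (interior_subset (hCC₁ hz)) (hy'.trans_le (min_le_right _ _))).le

theorem rich_qf_parallelogram {A : Matrix ι ι ℂ} (hA : A.IsHermitian) (u y : ι → ℂ) :
    qf A (u - y) + qf A (u + y) = 2 * qf A u + 2 * qf A y := by
  have h1 := qf_add_vec (v := u) (w := -y) hA
  have h2 := qf_add_vec (v := u) (w := y) hA
  rw [qf_neg_vec, Matrix.mulVec_neg, dotProduct_neg, Complex.neg_re] at h1
  rw [sub_eq_add_neg, h1, h2]
  ring

theorem rich_continuous_qf (A : Matrix ι ι ℂ) : Continuous fun w : CE ι => qf A w :=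
  (contDiff_qf A).continuous

/-- the mollification of a Hermitian quadratic polynomial differs from it by a constant. -/
theorem rich_wsMol_quadratic_eq (k : ℕ) {a₀ : Matrix ι ι ℂ} (ha₀ : a₀.IsHermitian) (z₁ : CE ι) :
    ∃ c : ℝ, ∀ x : CE ι, B6E.wsMol k (fun y : CE ι => qf a₀ (y - z₁)) x = qf a₀ (x - z₁) + c := by
  have hPc : Continuous fun y : CE ι => qf a₀ (y - z₁) :=
    (rich_continuous_qf a₀).comp (continuous_id.sub continuous_const)
  have hPl : LocallyIntegrable (fun y : CE ι => qf a₀ (y - z₁)) volume := hPc.locallyIntegrable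
  have hQl : LocallyIntegrable (fun y : CE ι => qf a₀ y) volume :=
    (rich_continuous_qf a₀).locallyIntegrable
  have hQi : Integrable (fun y : CE ι => B6E.wsRho k y * qf a₀ y) volume := by
    have := B6E.wsMol_integrable' k hQl (0 : CE ι)
    refine this.congr (Eventually.of_forall fun y => ?_)
    simp only [smul_eq_mul, zero_sub, WithLp.ofLp_neg, qf_neg_vec]
  refine ⟨∫ y : CE ι, B6E.wsRho k y * qf a₀ y, fun x => ?_⟩
  have hI1 : Integrable (fun y : CE ι => B6E.wsRho k y * qf a₀ (x - y - z₁)) volume :=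
    B6E.wsMol_integrable' k hPl x
  have hI2 : Integrable (fun y : CE ι => B6E.wsRho k y * qf a₀ (x + y - z₁)) volume := by
    have := hI1.comp_neg
    refine this.congr (Eventually.of_forall fun y => ?_)
    simp only [B6E.wsRho_neg, WithLp.ofLp_neg, sub_neg_eq_add]
  have e1 : B6E.wsMol k (fun y : CE ι => qf a₀ (y - z₁)) x =
      ∫ y : CE ι, B6E.wsRho k y * qf a₀ (x - y - z₁) := by
    rw [B6E.wsMol_eq']
    rfl
  have e2 : ∫ y : CE ι, B6E.wsRho k y * qf a₀ (x - y - z₁) =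
      ∫ y : CE ι, B6E.wsRho k y * qf a₀ (x + y - z₁) := by
    rw [← integral_neg_eq_self (fun y : CE ι => B6E.wsRho k y * qf a₀ (x - y - z₁)) volume]
    refine integral_congr_ae (Eventually.of_forall fun y => ?_)
    simp only [B6E.wsRho_neg, WithLp.ofLp_neg, sub_neg_eq_add]
  have e3 : (∫ y : CE ι, B6E.wsRho k y * qf a₀ (x - y - z₁)) +
      ∫ y : CE ι, B6E.wsRho k y * qf a₀ (x + y - z₁) =
      2 * qf a₀ (x - z₁) + 2 * ∫ y : CE ι, B6E.wsRho k y * qf a₀ y := by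
    rw [← integral_add hI1 hI2]
    have : ∀ y : CE ι, B6E.wsRho k y * qf a₀ (x - y - z₁) + B6E.wsRho k y * qf a₀ (x + y - z₁) =
        (2 * qf a₀ (x - z₁)) * B6E.wsRho k y + 2 * (B6E.wsRho k y * qf a₀ y) := by
      intro y
      have h1 := rich_qf_parallelogram ha₀ (x.ofLp - z₁.ofLp) y.ofLp
      have h2 : x.ofLp - y.ofLp - z₁.ofLp = x.ofLp - z₁.ofLp - y.ofLp := by abel
      have h3 : x.ofLp + y.ofLp - z₁.ofLp = x.ofLp - z₁.ofLp + y.ofLp := by abel
      rw [h2, h3, ← mul_add, h1]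
      ring
    simp only [this]
    rw [integral_add ((B6E.wsRho_integrable k).const_mul _) (hQi.const_mul 2), integral_const_mul,
      integral_const_mul, B6E.wsRho_integral, mul_one]
  rw [e1]
  rw [← e2] at e3
  linarith

theorem rich_levi_quadratic {a₀ : Matrix ι ι ℂ} (ha₀ : a₀.IsHermitian) (z₁ z : CE ι) :
    levi (fun y : CE ι => qf a₀ (y - z₁)) z = a₀ := by
  have h := levi_comp_add_const (z := z) (fun w : CE ι => qf a₀ (fun j => w j)) (-z₁)
  rw [levi_qf a₀ ha₀] at h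
  have e : (fun y : CE ι => qf a₀ (y - z₁)) = fun w : CE ι => qf a₀ fun j => (w + -z₁).ofLp j := by
    funext w
    congr 1
  rw [e]
  exact h

/-- the mollification of a Hermitian quadratic polynomial has the same Levi matrix. -/
theorem wsMol_quadratic (k : ℕ) {a₀ : Matrix ι ι ℂ} (ha₀ : a₀.IsHermitian) (z₁ z : CE ι) :
    levi (B6E.wsMol k fun y : CE ι => qf a₀ (y - z₁)) z = a₀ := by
  obtain ⟨c, hc⟩ := rich_wsMol_quadratic_eq k ha₀ z₁
  have e : (B6E.wsMol k fun y : CE ι => qf a₀ (y - z₁)) = fun x : CE ι => qf a₀ (x - z₁) + c :=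
    funext hc
  rw [e, levi_add_const]
  exact rich_levi_quadratic ha₀ z₁ z

/-- **Levi lower bound for the mollifications of a continuous viscosity subsolution**, uniform on compact sets. -/
theorem levi_wsMol_ge_of_chVisc {U C : Set (CE ι)} (hU : IsOpen U) (hC : IsCompact C) (hCU : C ⊆ U)
    {f : CE ι → ℝ} (hf : LocallyIntegrable f volume) (hc : ContinuousOn f U)
    {a : CE ι → Matrix ι ι ℂ} (ha : ∀ j k, ContinuousOn (fun z => a z j k) U)
    (hherm : ∀ z ∈ U, (a z).IsHermitian) (hv : ChVisc U f a) {η : ℝ} (hη : 0 < η) :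
    ∀ᶠ k : ℕ in atTop, ∀ z ∈ C, (levi (B6E.wsMol k f) z - a z + cI η).PosSemidef := by
  obtain ⟨r, hr, hrs⟩ := exists_loewner_close hU hC hCU ha hherm hη
  filter_upwards [rich_eventually_scale hr] with k hk z₁ hz₁
  obtain ⟨a₀, ha₀def⟩ : ∃ a₀ : Matrix ι ι ℂ, a₀ = a z₁ - cI η := ⟨_, rfl⟩
  have ha₀ : a₀.IsHermitian := by
    rw [ha₀def]
    exact (hherm z₁ (hCU hz₁)).sub (rich_isHermitian_cI η)
  have hPs : ContDiff ℝ ∞ fun y : CE ι => qf a₀ (y - z₁) :=
    (contDiff_qf a₀).comp (contDiff_id.sub contDiff_const)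
  have hPl : LocallyIntegrable (fun y : CE ι => qf a₀ (y - z₁)) volume :=
    hPs.continuous.locallyIntegrable
  have hleviP : ∀ y : CE ι, levi (fun y : CE ι => qf a₀ (y - z₁)) y = a₀ :=
    rich_levi_quadratic ha₀ z₁
  have hOU : Metric.ball z₁ r ⊆ U := fun y hy => (hrs z₁ hz₁ y (Metric.mem_ball.1 hy)).1
  have hvisc : ChVisc (Metric.ball z₁ r) (fun y => f y - qf a₀ (y - z₁)) 0 := by
    intro y hy q hq hle heq
    have h1 := hv y (hOU hy) (fun w => q w + qf a₀ (w - z₁)) (hq.add hPs)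
      (by filter_upwards [hle] with w hw; linarith) (by simp only [heq]; ring)
    rw [levi_add (hq.of_le lv_two_le_infty).contDiffAt (hPs.of_le lv_two_le_infty).contDiffAt,
      hleviP] at h1
    have h2 := (hrs z₁ hz₁ y (Metric.mem_ball.1 hy)).2
    have e : levi q y - (0 : CE ι → Matrix ι ι ℂ) y =
        (levi q y + a₀ - a y) + (a y - a z₁ + cI η) := by
      rw [ha₀def]
      simp only [Pi.zero_apply]
      abel
    rw [e]
    exact h1.add h2
  have hcont : ContinuousOn (fun y => f y - qf a₀ (y - z₁)) (Metric.ball z₁ r) :=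
    (hc.mono hOU).sub hPs.continuous.continuousOn
  have hpsh : PshOn (Metric.ball z₁ r) (fun y => f y - qf a₀ (y - z₁)) :=
    ChVisc.pshOn Metric.isOpen_ball hcont hvisc
  have h1 := levi_wsMol_posSemidef (v := fun y => f y - qf a₀ (y - z₁)) Metric.isOpen_ball
    (hf.sub hPl) hcont hpsh (k := k) (z := z₁)
    (Metric.closedBall_subset_ball hk)
  rw [B6E.wsMol_sub k hf hPl, levi_sub
    ((B6E.wsMol_contDiff k hf).of_le lv_two_le_infty).contDiffAt
    ((B6E.wsMol_contDiff k hPl).of_le lv_two_le_infty).contDiffAt, wsMol_quadratic k ha₀] at h1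
  have e : levi (B6E.wsMol k f) z₁ - a z₁ + cI η = levi (B6E.wsMol k f) z₁ - a₀ := by
    rw [ha₀def]
    abel
  rw [e]
  exact h1

end levi

/-! ### Lipschitz bounds in a chart -/

section lip

variable {G : Matrix ι ι ℂ} {f f' : CE ι → ℝ} {L L' : ℝ} {z : CE ι}

theorem ChLipAt.congr (h : ChLipAt G f L z) (he : f =ᶠ[𝓝 z] f') : ChLipAt G f' L z := by
  intro η hη
  have h1 : ∀ᶠ p in 𝓝 ((z, z) : CE ι × CE ι), f p.1 = f' p.1 :=
    (continuous_fst.tendsto ((z, z) : CE ι × CE ι)).eventually he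
  have h2 : ∀ᶠ p in 𝓝 ((z, z) : CE ι × CE ι), f p.2 = f' p.2 :=
    (continuous_snd.tendsto ((z, z) : CE ι × CE ι)).eventually he
  filter_upwards [h η hη, h1, h2] with p hp e1 e2
  rw [← e1, ← e2]
  exact hp

theorem ChLipAt.mono (h : ChLipAt G f L z) (hL : L ≤ L') : ChLipAt G f L' z := by
  intro η hη
  filter_upwards [h η hη] with p hp
  exact hp.trans (mul_le_mul_of_nonneg_right (by linarith) (Real.sqrt_nonneg _))

theorem ChLipAt.add (h : ChLipAt G f L z) (h' : ChLipAt G f' L' z) :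
    ChLipAt G (fun y => f y + f' y) (L + L') z := by
  intro η hη
  filter_upwards [h (η / 2) (half_pos hη), h' (η / 2) (half_pos hη)] with p hp hp'
  have e : f p.1 + f' p.1 - (f p.2 + f' p.2) = (f p.1 - f p.2) + (f' p.1 - f' p.2) := by ring
  rw [e]
  refine (abs_add_le _ _).trans ?_
  have e2 : (L + L' + η) * Real.sqrt (qf G (p.1 - p.2)) =
      (L + η / 2) * Real.sqrt (qf G (p.1 - p.2)) + (L' + η / 2) * Real.sqrt (qf G (p.1 - p.2)) := by
    ring
  rw [e2]
  exact add_le_add hp hp'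

theorem ChLipAt.const_mul (h : ChLipAt G f L z) (_hL : 0 ≤ L) (c : ℝ) :
    ChLipAt G (fun y => c * f y) (|c| * L) z := by
  intro η hη
  filter_upwards [h (η / (|c| + 1)) (by positivity)] with p hp
  rw [← mul_sub, abs_mul]
  have h1 := mul_le_mul_of_nonneg_left hp (abs_nonneg c)
  refine h1.trans ?_
  rw [← mul_assoc]
  refine mul_le_mul_of_nonneg_right ?_ (Real.sqrt_nonneg _)
  have h2 : |c| * (η / (|c| + 1)) ≤ η := by
    rw [← mul_div_assoc, div_le_iff₀ (by positivity)]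
    nlinarith [abs_nonneg c]
  linarith

theorem ChLipAt.add_const (h : ChLipAt G f L z) (c : ℝ) : ChLipAt G (fun y => f y + c) L z := by
  intro η hη
  filter_upwards [h η hη] with p hp
  have e : f p.1 + c - (f p.2 + c) = f p.1 - f p.2 := by ring
  rw [e]
  exact hp

theorem rich_norm_le_sqrt_qf {G : Matrix ι ι ℂ} {c : ℝ} (hc : 0 < c) (h : (G - cI c).PosSemidef)
    (a : CE ι) : ‖a‖ ≤ Real.sqrt (qf G a) / Real.sqrt c := by
  have h1 := qf_nonneg h a
  rw [qf_sub, rich_qf_cI, ← EuclideanSpace.norm_sq_eq] at h1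
  rw [le_div_iff₀ (Real.sqrt_pos.2 hc)]
  have h2 : ‖a‖ * Real.sqrt c = Real.sqrt (c * ‖a‖ ^ 2) := by
    rw [Real.sqrt_mul hc.le, Real.sqrt_sq (norm_nonneg a), mul_comm]
  rw [h2]
  exact Real.sqrt_le_sqrt (by linarith)

/-- a `C¹` function has a uniform Lipschitz bound on a compact set. -/
theorem exists_chLipAt_of_contDiff {U C : Set (CE ι)} (hC : IsCompact C) (hCU : C ⊆ U)
    {G : CE ι → Matrix ι ι ℂ} (hG : ∀ j k, ContinuousOn (fun z => G z j k) U)
    (hpos : ∀ z ∈ U, (G z).PosDef) {β : CE ι → ℝ} (hβ : ContDiff ℝ ∞ β) :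
    ∃ L : ℝ, 0 ≤ L ∧ ∀ z ∈ C, ChLipAt (G z) β L z := by
  obtain ⟨c, hc, hcG⟩ := exists_cI_le hC hCU hG hpos
  obtain ⟨R, hR⟩ := hC.isBounded.subset_closedBall (0 : CE ι)
  have hfc : Continuous (fderiv ℝ β) := hβ.continuous_fderiv (by simp)
  obtain ⟨L₀, hL₀⟩ := (isCompact_closedBall (0 : CE ι) (R + 1)).exists_bound_of_continuousOn
    hfc.continuousOn
  refine ⟨|L₀| / Real.sqrt c, by positivity, fun z hz η hη => ?_⟩
  have hzb : z ∈ Metric.ball (0 : CE ι) (R + 1) :=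
    Metric.closedBall_subset_ball (by linarith) (hR hz)
  have hN : Metric.ball (0 : CE ι) (R + 1) ×ˢ Metric.ball (0 : CE ι) (R + 1) ∈
      𝓝 ((z, z) : CE ι × CE ι) :=
    prod_mem_nhds (Metric.isOpen_ball.mem_nhds hzb) (Metric.isOpen_ball.mem_nhds hzb)
  filter_upwards [hN] with p hp
  have h1 : ‖β p.1 - β p.2‖ ≤ |L₀| * ‖p.1 - p.2‖ :=
    Convex.norm_image_sub_le_of_norm_fderiv_le (𝕜 := ℝ)
      (fun x _ => (hβ.differentiable (by simp)).differentiableAt)
      (fun x hx => (hL₀ x (Metric.ball_subset_closedBall hx)).trans (le_abs_self _))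
      (convex_ball (0 : CE ι) (R + 1)) hp.2 hp.1
  rw [Real.norm_eq_abs] at h1
  refine h1.trans ?_
  have h2 := rich_norm_le_sqrt_qf hc (hcG z hz) (p.1 - p.2)
  have h3 := mul_le_mul_of_nonneg_left h2 (abs_nonneg L₀)
  refine h3.trans ?_
  have e : |L₀| * (Real.sqrt (qf (G z) (p.1 - p.2 : CE ι)) / Real.sqrt c) =
      |L₀| / Real.sqrt c * Real.sqrt (qf (G z) (p.1 - p.2 : CE ι)) := by ring
  rw [e]
  exact mul_le_mul_of_nonneg_right (by linarith) (Real.sqrt_nonneg _)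

/-- uniform continuity near a compact set. -/
theorem rich_exists_unif {U C : Set (CE ι)} (hU : IsOpen U) (hC : IsCompact C) (hCU : C ⊆ U)
    {φ : CE ι → ℝ} (hφ : ContinuousOn φ U) {η : ℝ} (hη : 0 < η) :
    ∃ r > 0, ∀ z ∈ C, ∀ y, dist y z < r → y ∈ U ∧ |φ y - φ z| < η := by
  obtain ⟨C₁, hC₁, hCC₁, hC₁U⟩ := exists_compact_between hC hU hCU
  obtain ⟨ρ, hρ, hρs⟩ := hC.exists_thickening_subset_open isOpen_interior hCC₁
  obtain ⟨δ, hδ, hδs⟩ := Metric.uniformContinuousOn_iff.1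
    (hC₁.uniformContinuousOn_of_continuous (hφ.mono hC₁U)) _ hη
  refine ⟨min ρ δ, lt_min hρ hδ, fun z hz y hy => ?_⟩
  have hyC₁ : y ∈ C₁ := interior_subset
    (hρs (Metric.mem_thickening_iff.2 ⟨z, hz, hy.trans_le (min_le_left _ _)⟩))
  refine ⟨hC₁U hyC₁, ?_⟩
  rw [← Real.dist_eq]
  exact hδs y hyC₁ z (interior_subset (hCC₁ hz)) (hy.trans_le (min_le_right _ _))

/-- a bound for all translates gives a bound for the mollification. -/
theorem rich_wsMol_sub_le (k : ℕ) {f : CE ι → ℝ} (hf : LocallyIntegrable f volume) {y y' : CE ι}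
    {M : ℝ} (h : ∀ t : CE ι, ‖t‖ < 1 / ((k : ℝ) + 1) → |f (y - t) - f (y' - t)| ≤ M) :
    |B6E.wsMol k f y - B6E.wsMol k f y'| ≤ M := by
  rw [B6E.wsMol_eq', B6E.wsMol_eq', ← integral_sub (B6E.wsMol_integrable' k hf y)
    (B6E.wsMol_integrable' k hf y'), ← Real.norm_eq_abs]
  have hb : Integrable (fun t : CE ι => B6E.wsRho k t * M) volume :=
    (B6E.wsRho_integrable k).mul_const M
  refine (norm_integral_le_of_norm_le hb (Eventually.of_forall fun t => ?_)).trans ?_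
  · rw [← smul_sub, norm_smul, Real.norm_eq_abs, abs_of_nonneg (B6E.wsRho_nonneg k t),
      Real.norm_eq_abs]
    rcases lt_or_ge ‖t‖ (1 / ((k : ℝ) + 1)) with ht | ht
    · exact mul_le_mul_of_nonneg_left (h t ht) (B6E.wsRho_nonneg k t)
    · rw [B6E.wsRho_eq_zero ht, zero_mul, zero_mul]
  · rw [integral_mul_const, B6E.wsRho_integral, one_mul]

/-- **mollification almost preserves local Lipschitz bounds**, uniformly on compact sets. -/
theorem chLipAt_wsMol {U C : Set (CE ι)} (hU : IsOpen U) (hC : IsCompact C) (hCU : C ⊆ U)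
    {f : CE ι → ℝ} (hf : LocallyIntegrable f volume) (_hc : ContinuousOn f U)
    {G : CE ι → Matrix ι ι ℂ} (hG : ∀ j k, ContinuousOn (fun z => G z j k) U)
    (hpos : ∀ z ∈ U, (G z).PosDef) {lam : CE ι → ℝ} (hlam : ContinuousOn lam U)
    (hlam0 : ∀ z ∈ U, 0 ≤ lam z) (hlip : ∀ z ∈ U, ChLipAt (G z) f (lam z) z) {η : ℝ} (hη : 0 < η) :
    ∀ᶠ k : ℕ in atTop, ∀ z ∈ C, ChLipAt (G z) (B6E.wsMol k f) (lam z + η) z := by
  obtain ⟨Λ₀, hΛ₀⟩ := hC.exists_bound_of_continuousOn (hlam.mono hCU)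
  obtain ⟨ε, hεdef⟩ : ∃ ε : ℝ, ε = η / 2 / (|Λ₀| + η / 2) := ⟨_, rfl⟩
  have hε : 0 < ε := by rw [hεdef]; positivity
  have hεe : ε * (|Λ₀| + η / 2) = η / 2 := by rw [hεdef]; field_simp
  obtain ⟨r₁, hr₁, h₁⟩ := exists_qf_le hU hC hCU hG hpos hε
  obtain ⟨r₂, hr₂, h₂⟩ := rich_exists_unif hU hC hCU hlam (η := η / 4) (by positivity)
  filter_upwards [rich_eventually_scale (lt_min hr₁ hr₂)] with k hk z hz η' hη'
  have hzU := hCU hz
  have hlz : lam z ≤ |Λ₀| := (le_abs_self _).trans ((hΛ₀ z hz).trans (le_abs_self _))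
  have hlz0 := hlam0 z hzU
  -- the set of good pairs
  obtain ⟨S, hSdef⟩ : ∃ S : Set (CE ι × CE ι), S = {p | |f p.1 - f p.2| ≤
      (lam z + η) * Real.sqrt (qf (G z) (p.1 - p.2))} := ⟨_, rfl⟩
  have hS : ∀ q ∈ Metric.closedBall z (1 / ((k : ℝ) + 1)), ((q, q) : CE ι × CE ι) ∈ interior S := by
    intro q hq
    have hqz : dist q z < min r₁ r₂ := (Metric.mem_closedBall.1 hq).trans_lt hk
    obtain ⟨hqU, hqG⟩ := h₁ z hz q (hqz.trans_le (min_le_left _ _))
    have hql := (abs_lt.1 (h₂ z hz q (hqz.trans_le (min_le_right _ _))).2).2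
    rw [mem_interior_iff_mem_nhds]
    filter_upwards [hlip q hqU (η / 4) (by positivity)] with p hp
    rw [hSdef]
    refine hp.trans ?_
    have hq0 := hlam0 q hqU
    have g1 : Real.sqrt (qf (G q) (p.1 - p.2)) ≤ (1 + ε) * Real.sqrt (qf (G z) (p.1 - p.2)) := by
      have a1 := (hqG (p.1 - p.2)).1
      have a2 : 0 ≤ qf (G z) (p.1 - p.2) := qf_nonneg (hpos z hzU).posSemidef _
      calc Real.sqrt (qf (G q) (p.1 - p.2)) ≤ Real.sqrt ((1 + ε) ^ 2 * qf (G z) (p.1 - p.2)) := by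
            refine Real.sqrt_le_sqrt (a1.trans ?_)
            exact mul_le_mul_of_nonneg_right (by nlinarith) a2
        _ = (1 + ε) * Real.sqrt (qf (G z) (p.1 - p.2)) := by
            rw [Real.sqrt_mul (by positivity), Real.sqrt_sq (by positivity)]
    have g2 : (lam q + η / 4) * (1 + ε) ≤ lam z + η := by
      have : (lam q + η / 4) ≤ lam z + η / 2 := by linarith
      calc (lam q + η / 4) * (1 + ε) ≤ (lam z + η / 2) * (1 + ε) :=
            mul_le_mul_of_nonneg_right this (by positivity)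
        _ = lam z + η / 2 + ε * (lam z + η / 2) := by ring
        _ ≤ lam z + η / 2 + ε * (|Λ₀| + η / 2) := by
            have := mul_le_mul_of_nonneg_left (add_le_add_left hlz (η / 2)) hε.le
            linarith
        _ = lam z + η := by rw [hεe]; ring
    calc (lam q + η / 4) * Real.sqrt (qf (G q) (p.1 - p.2))
        ≤ (lam q + η / 4) * ((1 + ε) * Real.sqrt (qf (G z) (p.1 - p.2))) :=
          mul_le_mul_of_nonneg_left g1 (by positivity)
      _ = (lam q + η / 4) * (1 + ε) * Real.sqrt (qf (G z) (p.1 - p.2)) := by ring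
      _ ≤ (lam z + η) * Real.sqrt (qf (G z) (p.1 - p.2)) :=
          mul_le_mul_of_nonneg_right g2 (Real.sqrt_nonneg _)
  have hKc : IsCompact ((fun q : CE ι => ((q, q) : CE ι × CE ι)) ''
      Metric.closedBall z (1 / ((k : ℝ) + 1))) :=
    (isCompact_closedBall z _).image (continuous_id.prodMk continuous_id)
  obtain ⟨δ, hδ, hδs⟩ := hKc.exists_thickening_subset_open isOpen_interior
    (by rintro _ ⟨q, hq, rfl⟩; exact hS q hq)
  have hN : Metric.ball z δ ×ˢ Metric.ball z δ ∈ 𝓝 ((z, z) : CE ι × CE ι) :=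
    prod_mem_nhds (Metric.ball_mem_nhds z hδ) (Metric.ball_mem_nhds z hδ)
  filter_upwards [hN] with p hp
  have hM : |B6E.wsMol k f p.1 - B6E.wsMol k f p.2| ≤
      (lam z + η) * Real.sqrt (qf (G z) (p.1 - p.2)) := by
    refine rich_wsMol_sub_le k hf fun t ht => ?_
    have hmem : ((p.1 - t, p.2 - t) : CE ι × CE ι) ∈ S := by
      refine interior_subset (hδs (Metric.mem_thickening_iff.2 ⟨(z - t, z - t), ⟨z - t, ?_, rfl⟩, ?_⟩))
      · rw [Metric.mem_closedBall, dist_eq_norm]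
        have : z - t - z = -t := by abel
        rw [this, norm_neg]
        exact ht.le
      · rw [Prod.dist_eq, dist_sub_right, dist_sub_right]
        exact max_lt (Metric.mem_ball.1 hp.1) (Metric.mem_ball.1 hp.2)
    rw [hSdef] at hmem
    have hmem' : |f (p.1 - t) - f (p.2 - t)| ≤
        (lam z + η) * Real.sqrt (qf (G z) ((p.1 - t).ofLp - (p.2 - t).ofLp)) := hmem
    have e : (p.1 - t).ofLp - (p.2 - t).ofLp = p.1.ofLp - p.2.ofLp := by
      simp only [WithLp.ofLp_sub]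
      abel
    rwa [e] at hmem'
  exact hM.trans (mul_le_mul_of_nonneg_right (by linarith) (Real.sqrt_nonneg _))

end lip

/-! ### transfer between the manifold and a chart -/

section trans

variable {V : Type} [NormedAddCommGroup V] [NormedSpace ℝ V] [FiniteDimensional ℝ V]
variable {𝓜 : CMfd V ι} {g : HFam V ι} {v : V → ℝ} {L : ℝ}
variable {Φ : CE ι → V} {U : Set (CE ι)} {z : CE ι}

theorem LocLipAt.chLipAt (hg : IsMetric 𝓜 g) (hΦ : 𝓜.IsHol Φ U) (hz : z ∈ U) (hL : 0 ≤ L)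
    (h : LocLipAt 𝓜 g v L (Φ z)) : ChLipAt (g Φ z) (v ∘ Φ) L z := by
  intro η hη
  obtain ⟨ε, hεdef⟩ : ∃ ε : ℝ, ε = η / 2 / (L + η / 2) := ⟨_, rfl⟩
  have hε : 0 < ε := by rw [hεdef]; positivity
  have hεe : (L + η / 2) * ε = η / 2 := by rw [hεdef]; field_simp
  obtain ⟨δ, hδ, _, hcmp⟩ := hdist_local_compare hg hΦ hz hε
  obtain ⟨N, hN, hNs⟩ := h (η / 2) (half_pos hη)
  rw [← (𝓜.isParam hΦ).map_nhds_eq hz, Filter.mem_map] at hN
  have hW : (Φ ⁻¹' N ∩ Metric.ball z δ) ×ˢ (Φ ⁻¹' N ∩ Metric.ball z δ) ∈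
      𝓝 ((z, z) : CE ι × CE ι) :=
    prod_mem_nhds (Filter.inter_mem hN (Metric.ball_mem_nhds z hδ))
      (Filter.inter_mem hN (Metric.ball_mem_nhds z hδ))
  filter_upwards [hW] with p hp
  have h1 := hNs (Φ p.1) hp.1.1 (Φ p.2) hp.2.1
  have h2 := (hcmp p.1 hp.1.2 p.2 hp.2.2).2
  refine h1.trans ((mul_le_mul_of_nonneg_left h2 (by positivity)).trans ?_)
  rw [← mul_assoc]
  refine mul_le_mul_of_nonneg_right ?_ (Real.sqrt_nonneg _)
  nlinarith

theorem LocLipAt.of_chLipAt (hg : IsMetric 𝓜 g) (hΦ : 𝓜.IsHol Φ U) (hz : z ∈ U) (hL : 0 ≤ L)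
    (h : ChLipAt (g Φ z) (v ∘ Φ) L z) : LocLipAt 𝓜 g v L (Φ z) := by
  intro η hη
  obtain ⟨ε, hεdef⟩ : ∃ ε : ℝ, ε = η / 2 / (L + η) := ⟨_, rfl⟩
  have hε : 0 < ε := by rw [hεdef]; positivity
  have hεe : (L + η) * ε = η / 2 := by rw [hεdef]; field_simp
  obtain ⟨δ, hδ, _, hcmp⟩ := hdist_local_compare hg hΦ hz hε
  have h1 := h (η / 2) (half_pos hη)
  rw [nhds_prod_eq] at h1
  obtain ⟨W, hW, hWs⟩ := Filter.mem_prod_same_iff.1 h1
  refine ⟨Φ '' (W ∩ Metric.ball z δ), ?_, ?_⟩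
  · rw [← (𝓜.isParam hΦ).map_nhds_eq hz]
    exact Filter.image_mem_map (Filter.inter_mem hW (Metric.ball_mem_nhds z hδ))
  · rintro _ ⟨p₁, hp₁, rfl⟩ _ ⟨p₂, hp₂, rfl⟩
    have h2 : |(v ∘ Φ) p₁ - (v ∘ Φ) p₂| ≤ (L + η / 2) * Real.sqrt (qf (g Φ z) (p₁ - p₂)) :=
      hWs (Set.mk_mem_prod hp₁.1 hp₂.1)
    have h3 := (hcmp p₁ hp₁.2 p₂ hp₂.2).1
    refine h2.trans ?_
    have e : L + η / 2 = (L + η) * (1 - ε) := by rw [mul_sub, hεe]; ring
    rw [e, mul_assoc]
    exact mul_le_mul_of_nonneg_left h3 (by positivity)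

end trans

end Claimed.Agent.R316
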