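import Claimed.Agent.R316.Pack024
import Claimed.Agent.R316.Base.Rich.Cover
import Claimed.Agent.R316.Pack022_2
import Claimed.Agent.R316.Pack016
import Claimed.Agent.R316.B5.Comp

/-!
# Row 316, `BP-G13`, file `Rich/Visc.lean`: test functions in a chart; viscosity ⟺ plurisubharmonic; stability

Sub-captain: helper16.  PAPER FREE.

LEAVES.
* **G13-TEST** = section `test`  (~200 lines).
* (G13-POLY, G13-DISC are CANCELLED: `pshOn_of_visc` is now a corollary of `b5_pshOn_of_visc`, leaf B5-C3 of `B5/Comp.lean`, same proof for usc functions.)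
* **G13-STAB** = section `stab`  (`ddGe_of_tendsto`, ~300 lines).
The short statements of section `api2` are proved (glue).

PLANS.
* `exists_global_test`.  Choose `r > 0` with `closedBall z r ⊆ U`, a `ContDiffBump` `χ` at `z` with `rOut = r`; `f := χ * q` is `C^∞`, vanishes outside
  `C := closedBall z r`; `CMfd.exists_smooth_of_chart hΦ (isCompact_closedBall z r) _ f.contDiffOn _` gives `Q`; `χ = 1` near `z`.
* `DdGeAt.chart`.  `Q` from `exists_global_test`; `UpperSupp 𝓜 v Q (Φ z)`: use `(𝓜.isParam hΦ).map_nhds_eq hz`; `ddc Q Φ z = levi (Q ∘ Φ) z = levi q z` (`levi_congr`).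
* `ddGe_of_tendsto` (stability).  Fix `x ∈ 𝓜.carrier ∩ Ω`, an upper test function `q` of `v` at `x`, a parametrisation `(Φ, U)`, `Φ z₀ = x`; by `leFOn_singleton_of_chart` it suffices to show
  `(levi (q ∘ Φ) z₀ - A Φ z₀).PosSemidef`.  Fix `η > 0`; `r > 0` small with `closedBall z₀ r ⊆ U ∩ Φ⁻¹ Ω` and `v ∘ Φ ≤ q ∘ Φ` there.  `ψ_j := vs j ∘ Φ - q ∘ Φ - η ‖· - z₀‖²` attains its maximum over the closed ball at `z_j`.
  Uniform convergence on the compact set `Φ '' closedBall z₀ r`: `ψ_j z₀ → 0`, and `ψ_j ≤ - η ρ² + o(1)` on `ρ ≤ ‖· - z₀‖ ≤ r`; hence `z_j → z₀`, in particular `z_j` is interior for large `j`.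
  Test function at `Φ z_j` for `vs j`: `Q_j := q + P + const`, `P` a global smooth function with `P ∘ Φ = η ‖· - z₀‖²` near the ball of radius `r/2` (`exists_global_test'`).
  `DdGe` for `vs j` gives `levi (q ∘ Φ) z_j + η • 1 - A Φ z_j + ε_j g Φ z_j ≥ 0`; all entries are continuous at `z₀` (`contDiffAt_levi`, `IsHForm.smooth`): pass to the limit
  (`qf` of a fixed vector is continuous in the entries; `lv_posSemidef_iff_qf`), then `η → 0`.
-/

set_option autoImplicit false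
set_option linter.unusedSectionVars false
open scoped ContDiff ComplexOrder Topology
open Filter

namespace Claimed.Agent.R316

variable {V : Type} [NormedAddCommGroup V] [NormedSpace ℝ V]
variable {ι : Type} [Fintype ι] [DecidableEq ι]
variable [FiniteDimensional ℝ V]
variable {𝓜 : CMfd V ι} {g A B : HFam V ι} {Ω : Set V} {v w : V → ℝ}

/-! ### test functions in a chart -/

section test

/-- a smooth function on `ℂ^ι` is, near a compact subset of the domain, the expression of a smooth function on the manifold. -/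
theorem exists_global_test' {Φ : CE ι → V} {U C : Set (CE ι)} (hΦ : 𝓜.IsHol Φ U) (hC : IsCompact C)
    (hCU : C ⊆ U) {q : CE ι → ℝ} (hq : ContDiff ℝ ∞ q) :
    ∃ (Q : V → ℝ) (O : Set (CE ι)), 𝓜.Smooth Q ∧ IsOpen O ∧ C ⊆ O ∧ O ⊆ U ∧ ∀ y ∈ O, Q (Φ y) = q y := by
  have hUo : IsOpen U := (𝓜.isParam hΦ).isOpen
  obtain ⟨C₁, _, hCC₁, hC₁U⟩ := exists_compact_between hC hUo hCU
  obtain ⟨β, hβ, _, ⟨O, hO, hCO, hβ1⟩, K', hK', hK'C, hβ0⟩ := exists_chart_bump hC hCC₁
  obtain ⟨u, hu, huf, _⟩ := CMfd.exists_smooth_of_chart hΦ hK'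
    ((hK'C.trans interior_subset).trans hC₁U) (f := fun y => β y * q y) (hβ.mul hq).contDiffOn
    (fun y _ hy => by rw [hβ0 y hy, zero_mul])
  refine ⟨u, O ∩ U, hu, hO.inter hUo, fun y hy => ⟨hCO hy, hCU hy⟩, Set.inter_subset_right,
    fun y hy => ?_⟩
  rw [huf y hy.2, hβ1 y hy.1, one_mul]

/-- the same near a point. -/
theorem exists_global_test {Φ : CE ι → V} {U : Set (CE ι)} (hΦ : 𝓜.IsHol Φ U) {z : CE ι} (hz : z ∈ U)
    {q : CE ι → ℝ} (hq : ContDiff ℝ ∞ q) : ∃ Q : V → ℝ, 𝓜.Smooth Q ∧ Q ∘ Φ =ᶠ[𝓝 z] q := by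
  obtain ⟨Q, O, hQ, hO, hzO, _, hQq⟩ := exists_global_test' hΦ (isCompact_singleton (x := z))
    (Set.singleton_subset_iff.2 hz) hq
  exact ⟨Q, hQ, Filter.eventually_of_mem (hO.mem_nhds (hzO rfl)) hQq⟩

/-- manifold viscosity inequality ⟹ chart viscosity inequality. -/
theorem DdGeAt.chart {Φ : CE ι → V} {U : Set (CE ι)} (hΦ : 𝓜.IsHol Φ U) {z : CE ι} (hz : z ∈ U)
    (h : DdGeAt 𝓜 v A (Φ z)) {q : CE ι → ℝ} (hq : ContDiff ℝ ∞ q)
    (hle : ∀ᶠ y in 𝓝 z, v (Φ y) ≤ q y) (heq : q z = v (Φ z)) : (levi q z - A Φ z).PosSemidef := by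
  obtain ⟨Q, hQ, hQq⟩ := exists_global_test hΦ hz hq
  have hsupp : UpperSupp 𝓜 v Q (Φ z) := by
    refine ⟨hQ, ?_, ?_⟩
    · rw [← (𝓜.isParam hΦ).map_nhds_eq hz, Filter.eventually_map]
      filter_upwards [hle, hQq] with y h1 h2
      have h3 : Q (Φ y) = q y := h2
      rw [h3]
      exact h1
    · have h3 : Q (Φ z) = q z := hQq.self_of_nhds
      rw [h3, heq]
  have h1 := h Q hsupp Φ U hΦ z hz rfl
  have e : ddc Q Φ z = levi q z := levi_congr hQq
  rwa [e] at h1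

theorem DdGe.chVisc {Φ : CE ι → V} {U : Set (CE ι)} (hΦ : 𝓜.IsHol Φ U) (h : DdGe 𝓜 Ω v A) :
    ChVisc (U ∩ Φ ⁻¹' Ω) (v ∘ Φ) (A Φ) := fun z hz _ hq hle heq =>
  DdGeAt.chart hΦ hz.1 (h (Φ z) ⟨CMfd.mem_carrier hΦ hz.1, hz.2⟩) hq hle heq

end test

/-! ### viscosity ⟹ psh -/

section disc

/-- chart version. -/
theorem pshOn_of_visc {U : Set (CE ι)} (hU : IsOpen U) {f : CE ι → ℝ} (hf : ContinuousOn f U)
    (h : ∀ z ∈ U, ∀ q : CE ι → ℝ, ContDiff ℝ ∞ q → (∀ᶠ y in 𝓝 z, f y ≤ q y) → q z = f z →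
      (levi q z).PosSemidef) : PshOn U f :=
  b5_pshOn_of_visc hU hf.upperSemicontinuousOn h

end disc

/-! ### 2. Viscosity ⟺ plurisubharmonic (export statements) -/

section api2

theorem ChVisc.pshOn {U : Set (CE ι)} (hU : IsOpen U) {f : CE ι → ℝ} (hf : ContinuousOn f U)
    (h : ChVisc U f 0) : PshOn U f :=
  pshOn_of_visc hU hf fun z hz q hq hle heq => by simpa using h z hz q hq hle heq

/-- a continuous viscosity psh function is psh. -/
theorem DdGe.isPshOn (hΩ : IsOpen Ω) (hv : ContinuousOn v (𝓜.carrier ∩ Ω)) (h : DdGe 𝓜 Ω v 0) :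
    𝓜.IsPshOn Ω v := by
  intro Φ U hΦ
  have hp := 𝓜.isParam hΦ
  refine ChVisc.pshOn (hp.isOpen_inter_preimage hΩ) ?_ (DdGe.chVisc hΦ h)
  exact hv.comp (hp.continuousOn.mono Set.inter_subset_left)
    fun z hz => ⟨CMfd.mem_carrier hΦ hz.1, hz.2⟩

/-- **a psh function (usc, not nec. continuous) admits no `C²` upper test function with a negative Levi direction.** -/
theorem PshOn.qf_levi_test_nonneg {U : Set (CE ι)} (hU : IsOpen U) {f : CE ι → ℝ} (hf : PshOn U f)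
    {z : CE ι} (hz : z ∈ U) {q : CE ι → ℝ} (hq : ContDiffAt ℝ 2 q z) (hle : ∀ᶠ y in 𝓝 z, f y ≤ q y)
    (heq : q z = f z) (a : CE ι) : 0 ≤ qf (levi q z) a :=
  (levi_posSemidef_iff hq).1 (levi_posSemidef_of_pshOn_touching hU hf hz hq hle heq.symm) a

/-- smooth functions: psh iff Levi matrix `≥ 0`. -/
theorem pshOn_of_levi_posSemidef {U : Set (CE ι)} (hU : IsOpen U) {f : CE ι → ℝ}
    (hf : ContDiffOn ℝ 2 f U) (h : ∀ z ∈ U, (levi f z).PosSemidef) : PshOn U f :=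
  pshOn_of_levi hU hf h

end api2

/-! ### stability -/

section stab

/-- `qf` of a matrix function with continuous entries. -/
theorem rich_continuousAt_qf {X : Type} [TopologicalSpace X] {B : X → Matrix ι ι ℂ} {z₀ : X}
    (h : ∀ j k, ContinuousAt (fun z => B z j k) z₀) (a : ι → ℂ) :
    ContinuousAt (fun z => qf (B z) a) z₀ := by
  simp only [qf_eq_sum]
  refine Complex.continuous_re.continuousAt.comp ?_
  refine tendsto_finsetSum _ fun j _ => tendsto_finsetSum _ fun k _ => ?_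
  exact (tendsto_const_nhds.mul (h j k)).mul tendsto_const_nhds

/-- **stability under locally uniform limits.** -/
theorem ddGe_of_tendsto (hg : IsMetric 𝓜 g) (hA : IsHForm 𝓜 A) (hΩ : IsOpen Ω) {vs : ℕ → V → ℝ}
    {ε : ℕ → ℝ} (hε : Tendsto ε atTop (𝓝 0))
    (hcont : ∀ j, ContinuousOn (vs j) (𝓜.carrier ∩ Ω))
    (hdd : ∀ j, DdGe 𝓜 Ω (vs j) (A - smulF (fun _ => ε j) g))
    (hlim : TendstoLocallyUniformlyOn vs v atTop (𝓜.carrier ∩ Ω)) : DdGe 𝓜 Ω v A := by
  intro x hx q hq Φ U hΦ z₀ hz₀ hzx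
  rw [Set.mem_singleton_iff] at hzx
  subst hzx
  have hp := 𝓜.isParam hΦ
  have hUo : IsOpen U := hp.isOpen
  obtain ⟨u, hudef⟩ : ∃ u : CE ι → ℝ, u = q ∘ Φ := ⟨_, rfl⟩
  have hu : ContDiffOn ℝ ∞ u U := by rw [hudef]; exact hq.smooth Φ U hΦ
  have huat : ∀ y ∈ U, ContDiffAt ℝ ∞ u y := fun y hy => hu.contDiffAt (hUo.mem_nhds hy)
  have hOo : IsOpen (U ∩ Φ ⁻¹' Ω) := hp.isOpen_inter_preimage hΩ
  have hle : ∀ᶠ y in 𝓝 z₀, v (Φ y) ≤ u y := by
    have := hq.le
    rw [← hp.map_nhds_eq hz₀, Filter.eventually_map] at this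
    rw [hudef]
    exact this
  obtain ⟨r, hr, hrs⟩ := Metric.nhds_basis_closedBall.mem_iff.1
    (Filter.inter_mem (hOo.mem_nhds ⟨hz₀, hx.2⟩) hle)
  have hKO : Metric.closedBall z₀ r ⊆ U ∩ Φ ⁻¹' Ω := fun y hy => (hrs hy).1
  have hKU : Metric.closedBall z₀ r ⊆ U := fun y hy => (hKO hy).1
  have hKle : ∀ y ∈ Metric.closedBall z₀ r, v (Φ y) ≤ u y := fun y hy => (hrs hy).2
  have hK : IsCompact (Metric.closedBall z₀ r) := isCompact_closedBall z₀ r
  have hmaps : Set.MapsTo Φ (U ∩ Φ ⁻¹' Ω) (𝓜.carrier ∩ Ω) := fun y hy =>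
    ⟨CMfd.mem_carrier hΦ hy.1, hy.2⟩
  have hΦc : ContinuousOn Φ (U ∩ Φ ⁻¹' Ω) := hp.continuousOn.mono Set.inter_subset_left
  have hunif : TendstoUniformlyOn (fun n => vs n ∘ Φ) (v ∘ Φ) atTop (Metric.closedBall z₀ r) :=
    (tendstoLocallyUniformlyOn_iff_tendstoUniformlyOn_of_compact hK).1
      ((hlim.comp Φ hmaps hΦc).mono hKO)
  rw [Metric.tendstoUniformlyOn_iff] at hunif
  have hux : u z₀ = v (Φ z₀) := by rw [hudef]; exact hq.eq
  have e0 : ddc q Φ z₀ = levi u z₀ := by rw [hudef]; rfl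
  rw [e0]
  have hherm : (levi u z₀ - A Φ z₀).IsHermitian :=
    (levi_isHermitian ((huat z₀ hz₀).of_le lv_two_le_infty)).sub (hA.herm hΦ z₀ hz₀)
  refine rich_posSemidef_of_forall_add (Matrix.isHermitian_one (n := ι) (α := ℂ)) fun η hη => ?_
  rw [posSemidef_iff_qf (hherm.add (isHermitian_smul_real η Matrix.isHermitian_one))]
  intro a
  -- the penalised maxima
  have hPs : ContDiff ℝ ∞ fun y : CE ι => η * ‖y - z₀‖ ^ 2 :=
    contDiff_const.mul ((contDiff_id.sub contDiff_const).norm_sq ℂ)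
  obtain ⟨P, O', hP, hO', hKO', _, hPq⟩ := exists_global_test' hΦ hK hKU hPs
  have hψc : ∀ j, ContinuousOn (fun y => vs j (Φ y) - u y - η * ‖y - z₀‖ ^ 2)
      (Metric.closedBall z₀ r) := fun j =>
    ((((hcont j).comp hΦc hmaps).mono hKO).sub (hu.continuousOn.mono hKU)).sub
      hPs.continuous.continuousOn
  have hex : ∀ j, ∃ y ∈ Metric.closedBall z₀ r,
      IsMaxOn (fun y => vs j (Φ y) - u y - η * ‖y - z₀‖ ^ 2) (Metric.closedBall z₀ r) y := fun j =>
    hK.exists_isMaxOn ⟨z₀, Metric.mem_closedBall_self hr.le⟩ (hψc j)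
  choose zj hzjK hzjmax using hex
  have hz₀K : z₀ ∈ Metric.closedBall z₀ r := Metric.mem_closedBall_self hr.le
  have hclose : ∀ ρ : ℝ, 0 < ρ → ∀ᶠ j in atTop, dist (zj j) z₀ < ρ := by
    intro ρ hρ
    filter_upwards [hunif (η * ρ ^ 2 / 2) (by positivity)] with j hj
    have h1 := hzjmax j hz₀K
    simp only [Set.mem_ofPred_eq, sub_self, norm_zero] at h1
    have h2 := abs_lt.1 (by simpa [Real.dist_eq] using hj z₀ hz₀K)
    have h3 := abs_lt.1 (by simpa [Real.dist_eq] using hj (zj j) (hzjK j))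
    have h4 := hKle (zj j) (hzjK j)
    rw [dist_eq_norm]
    have h5 : η * ‖zj j - z₀‖ ^ 2 < η * ρ ^ 2 := by linarith [h2.1, h2.2, h3.1, h3.2]
    have h6 : ‖zj j - z₀‖ ^ 2 < ρ ^ 2 := lt_of_mul_lt_mul_left h5 hη.le
    exact lt_of_pow_lt_pow_left₀ 2 hρ.le h6
  have hzlim : Tendsto zj atTop (𝓝 z₀) := Metric.tendsto_atTop'.2 fun ρ hρ => by
    obtain ⟨n, hn⟩ := Filter.eventually_atTop.1 (hclose ρ hρ)
    exact ⟨n, fun m hm => hn m hm.le⟩
  -- the viscosity inequality at `zj j`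
  have hineq : ∀ᶠ j in atTop, 0 ≤ qf (levi u (zj j)) a - qf (A Φ (zj j)) a
      + ε j * qf (g Φ (zj j)) a + η * qf (1 : Matrix ι ι ℂ) a := by
    filter_upwards [hclose r hr] with j hj
    have hzU : zj j ∈ U := hKU (hzjK j)
    obtain ⟨c, hcdef⟩ : ∃ c : ℝ, c = vs j (Φ (zj j)) - u (zj j) - η * ‖zj j - z₀‖ ^ 2 := ⟨_, rfl⟩
    have hnear : ∀ᶠ y in 𝓝 (zj j), y ∈ Metric.closedBall z₀ r ∧ y ∈ O' :=
      (Filter.eventually_of_mem (Metric.isOpen_ball.mem_nhds (Metric.mem_ball.2 hj))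
        fun y hy => Metric.ball_subset_closedBall hy).and (hO'.mem_nhds (hKO' (hzjK j)))
    have hsupp : UpperSupp 𝓜 (vs j) (fun y => (q y + P y) + c) (Φ (zj j)) := by
      refine ⟨(hq.smooth.add hP).add_const c, ?_, ?_⟩
      · rw [← hp.map_nhds_eq hzU, Filter.eventually_map]
        filter_upwards [hnear] with y hy
        have h1 := hzjmax j hy.1
        simp only [Set.mem_ofPred_eq] at h1
        rw [hPq y hy.2, hcdef]
        have : q (Φ y) = u y := by rw [hudef]; rfl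
        rw [this]
        linarith
      · rw [hPq _ (hKO' (hzjK j)), hcdef]
        have : q (Φ (zj j)) = u (zj j) := by rw [hudef]; rfl
        rw [this]
        ring
    have h1 := hdd j (Φ (zj j)) (hmaps (hKO (hzjK j))) _ hsupp Φ U hΦ (zj j) hzU rfl
    have e1 : ddc (fun y => (q y + P y) + c) Φ (zj j) = levi u (zj j) + ((η : ℝ) : ℂ) • 1 := by
      have hc : ((fun y => (q y + P y) + c) ∘ Φ) =ᶠ[𝓝 (zj j)]
          fun y => (u y + η * ‖y - z₀‖ ^ 2) + c := by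
        filter_upwards [hnear] with y hy
        simp only [Function.comp_apply, hPq y hy.2, hudef]
      have h2 : ContDiffAt ℝ 2 (fun y : CE ι => ‖y - z₀‖ ^ 2) (zj j) :=
        (((contDiff_id.sub contDiff_const).norm_sq ℂ).of_le lv_two_le_infty).contDiffAt
      have : ddc (fun y => (q y + P y) + c) Φ (zj j) =
          levi (fun y => (u y + η * ‖y - z₀‖ ^ 2) + c) (zj j) := levi_congr hc
      rw [this, levi_add_const, levi_add ((huat _ hzU).of_le lv_two_le_infty)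
        (contDiffAt_const.mul h2), levi_const_mul _ h2, levi_normSq_sub]
    rw [e1] at h1
    have h2 := qf_nonneg h1 a
    have e2 : (A - smulF (fun _ => ε j) g) Φ (zj j) =
        A Φ (zj j) - ((ε j : ℝ) : ℂ) • g Φ (zj j) := rfl
    rw [e2, qf_sub, qf_add, qf_sub, qf_smul, qf_smul] at h2
    linarith
  have hc1 : ContinuousAt (fun y => qf (levi u y) a) z₀ := rich_continuousAt_qf (fun j k =>
    ((contDiffOn_levi hUo hu).continuousOn.continuousAt (hUo.mem_nhds hz₀))) a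
  have hc2 : ContinuousAt (fun y => qf (A Φ y) a) z₀ := rich_continuousAt_qf (fun j k =>
    ((hA.smooth hΦ j k).continuousOn.continuousAt (hUo.mem_nhds hz₀))) a
  have hc3 : ContinuousAt (fun y => qf (g Φ y) a) z₀ := rich_continuousAt_qf (fun j k =>
    ((hg.smooth hΦ j k).continuousOn.continuousAt (hUo.mem_nhds hz₀))) a
  have hlimit : Tendsto (fun j => qf (levi u (zj j)) a - qf (A Φ (zj j)) a
      + ε j * qf (g Φ (zj j)) a + η * qf (1 : Matrix ι ι ℂ) a) atTop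
      (𝓝 (qf (levi u z₀) a - qf (A Φ z₀) a + 0 * qf (g Φ z₀) a + η * qf (1 : Matrix ι ι ℂ) a)) :=
    ((((hc1.tendsto.comp hzlim).sub (hc2.tendsto.comp hzlim)).add
      (hε.mul (hc3.tendsto.comp hzlim))).add tendsto_const_nhds)
  have hfin := ge_of_tendsto hlimit hineq
  rw [qf_add, qf_sub, qf_smul]
  linarith

end stab

end Claimed.Agent.R316
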